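import Vale.Agent.Lib.P057.Local

/-! P057: no borderline case. -/

open scoped ENNReal
open Filter Topology

namespace Vale.Agent.P057

/-- tail sums -/
theorem tail_eq (c : ℕ → ℝ≥0∞) (N : ℕ) :
    ∑' j, (if N ≤ j then c j else 0) = ∑' j, c (j + N) := by
  have h8 := Summable.sum_add_tsum_nat_add' (f := fun j => if N ≤ j then c j else 0) (k := N)
    ENNReal.summable
  have h9 : ∑ j ∈ Finset.range N, (if N ≤ j then c j else 0) = 0 := by
    refine Finset.sum_eq_zero fun j hj => ?_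
    rw [Finset.mem_range] at hj
    exact if_neg (by omega)
  have h10 : ∀ j, (if N ≤ j + N then c (j + N) else 0) = c (j + N) := fun j =>
    if_pos (Nat.le_add_left N j)
  simp only [h9, zero_add, h10] at h8
  exact h8.symm

/-- a convergent series stays convergent after multiplication with some factors tending to
infinity -/
theorem exists_boost (c : ℕ → ℝ≥0∞) (hc : ∑' j, c j ≠ ⊤) :
    ∃ G : ℕ → ℕ, Monotone G ∧ Tendsto G atTop atTop ∧ ∑' j, (G j : ℝ≥0∞) * c j ≠ ⊤ := by
  classical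
  have h0 : Tendsto (fun n => ∑' j, c (j + n)) atTop (𝓝 0) :=
    ENNReal.tendsto_sum_nat_add c hc
  have h1 : ∀ i : ℕ, ∃ n : ℕ, i ≤ n ∧ ∑' j, c (j + n) ≤ (2 : ℝ≥0∞)⁻¹ ^ i := by
    intro i
    have hpos : (0 : ℝ≥0∞) < (2 : ℝ≥0∞)⁻¹ ^ i :=
      ENNReal.pow_pos (ENNReal.inv_pos.2 (by norm_num)) i
    have h2 := (h0.eventually (gt_mem_nhds hpos)).and (eventually_ge_atTop i)
    obtain ⟨n, hn1, hn2⟩ := h2.exists
    exact ⟨n, hn2, hn1.le⟩
  choose n hn1 hn2 using h1
  set G : ℕ → ℕ := fun j => ((Finset.range (j + 1)).filter fun i => n i ≤ j).card with hG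
  have hGe : ∀ j, (G j : ℝ≥0∞) = ∑' i : ℕ, (if n i ≤ j then 1 else 0 : ℝ≥0∞) := by
    intro j
    rw [tsum_eq_sum (s := (Finset.range (j + 1)).filter fun i => n i ≤ j)]
    · rw [Finset.sum_congr rfl (fun i hi => if_pos (Finset.mem_filter.1 hi).2),
        Finset.sum_const, nsmul_eq_mul, mul_one]
    · intro i hi
      refine if_neg fun h => hi (Finset.mem_filter.2 ⟨Finset.mem_range.2 ?_, h⟩)
      have := hn1 i
      omega
  refine ⟨G, ?_, ?_, ?_⟩
  · intro a b hab
    refine Finset.card_le_card fun i hi => ?_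
    rw [Finset.mem_filter, Finset.mem_range] at hi ⊢
    omega
  · rw [tendsto_atTop]
    intro M
    refine eventually_atTop.2 ⟨(Finset.range M).sup n + M, fun j hj => ?_⟩
    have h3 : Finset.range M ⊆ (Finset.range (j + 1)).filter fun i => n i ≤ j := by
      intro i hi
      have h4 := Finset.le_sup (f := n) hi
      rw [Finset.mem_range] at hi
      rw [Finset.mem_filter, Finset.mem_range]
      omega
    have h5 := Finset.card_le_card h3
    rwa [Finset.card_range] at h5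
  · have h6 : ∑' j, (G j : ℝ≥0∞) * c j = ∑' i : ℕ, ∑' j, (if n i ≤ j then c j else 0) := by
      rw [ENNReal.tsum_comm]
      refine tsum_congr fun j => ?_
      rw [hGe, ← ENNReal.tsum_mul_right]
      refine tsum_congr fun i => ?_
      split_ifs <;> simp
    have h7 : ∀ i, ∑' j, (if n i ≤ j then c j else 0) ≤ (2 : ℝ≥0∞)⁻¹ ^ i := by
      intro i
      rw [tail_eq]
      exact hn2 i
    rw [h6]
    refine ne_top_of_le_ne_top ?_ (ENNReal.tsum_le_tsum h7)
    rw [ENNReal.tsum_geometric]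
    refine ENNReal.inv_ne_top.2 ?_
    rw [ENNReal.one_sub_inv_two]
    exact (ENNReal.inv_pos.2 (by norm_num)).ne'

/-- scale weights -/
theorem sum_scale {k : ℕ} (u : ℕ → ℝ≥0∞) {A : Set ℕ} (hA0 : ∀ a ∈ A, 0 < a)
    (hA : ¬ HasAP k A) :
    ∑' a : A, u (Nat.log 4 a) ≤ ∑' j : ℕ, u j * (r k (4 ^ (j + 1)) : ℝ≥0∞) := by
  classical
  rw [tsum_subtype A (fun n => u (Nat.log 4 n))]
  have h1 : ∀ n, A.indicator (fun n => u (Nat.log 4 n)) n ≤
      ∑' j : ℕ, (if n ∈ A ∧ Nat.log 4 n = j then u j else 0) := by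
    intro n
    by_cases hn : n ∈ A
    · rw [Set.indicator_of_mem hn]
      refine le_trans ?_ (ENNReal.le_tsum (Nat.log 4 n))
      rw [if_pos ⟨hn, rfl⟩]
    · rw [Set.indicator_of_notMem hn]
      exact zero_le
  refine (ENNReal.tsum_le_tsum h1).trans ?_
  rw [ENNReal.tsum_comm]
  refine ENNReal.tsum_le_tsum fun j => ?_
  set F : Finset ℕ := (Finset.Icc 1 (4 ^ (j + 1))).filter fun n => n ∈ A ∧ Nat.log 4 n = j
    with hF
  have h3 : ∑' n : ℕ, (if n ∈ A ∧ Nat.log 4 n = j then u j else 0) =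
      (F.card : ℝ≥0∞) * u j := by
    rw [tsum_eq_sum (s := F)]
    · rw [Finset.sum_congr rfl (fun n hn => if_pos (Finset.mem_filter.1 hn).2),
        Finset.sum_const, nsmul_eq_mul]
    · intro n hn
      refine if_neg fun h => hn (Finset.mem_filter.2 ⟨Finset.mem_Icc.2 ⟨hA0 n h.1, ?_⟩, h⟩)
      have h4 := Nat.lt_pow_succ_log_self (b := 4) (by norm_num) n
      rw [h.2] at h4
      exact h4.le
  have h5 : F.card ≤ r k (4 ^ (j + 1)) :=
    le_r (Finset.filter_subset _ _) fun h => hA (h.mono fun n hn =>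
      (Finset.mem_filter.1 (Finset.mem_coe.1 hn)).2.1)
  rw [h3, mul_comm]
  exact mul_le_mul' le_rfl (by exact_mod_cast h5)

end Vale.Agent.P057
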