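import Mathlib

/-! P057: definitions. -/

open scoped ENNReal

namespace Vale.Agent.P057

/-- `A` contains a `k`-term arithmetic progression with positive difference -/
def HasAP (k : ℕ) (A : Set ℕ) : Prop := ∃ a d : ℕ, 0 < d ∧ ∀ i < k, a + i * d ∈ A

open Classical in
/-- `r k N`: the largest size of a subset of `{1, ..., N}` without `k`-term progressions -/
noncomputable def r (k N : ℕ) : ℕ :=
  ((Finset.Icc 1 N).powerset.filter fun S : Finset ℕ => ¬ HasAP k (S : Set ℕ)).sup Finset.card

/-- every set of positive integers with divergent `w`-sum contains a `k`-term progression -/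
def Forces (k : ℕ) (w : ℕ → ℝ≥0∞) : Prop :=
  ∀ A : Set ℕ, (∀ a ∈ A, 0 < a) → ∑' a : A, w a = ⊤ → HasAP k A

/-- starting points of `k`-term progressions `a, a + d, ..., a + (k - 1) d` of length less than `a / m`
in `A` -/
def Starts (k m : ℕ) (A : Set ℕ) : Set ℕ :=
  {a | ∃ d : ℕ, 0 < d ∧ m * ((k - 1) * d) < a ∧ ∀ i < k, a + i * d ∈ A}

end Vale.Agent.P057
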