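import Vale.Agent.Lib.P057.Weights

/-! P057: short progressions. -/

open scoped ENNReal

namespace Vale.Agent.P057

/-- the sum over a set without short progressions -/
theorem sum_loc {k : ℕ} (hk : 1 ≤ k) {w : ℕ → ℝ≥0∞} (hw : Antitone w) {D : ℝ≥0∞}
    (hD : ∀ n, 1 ≤ n → w n ≤ D * w (4 * n)) (m : ℕ) (hm : 1 ≤ m) {A : Set ℕ}
    (hA0 : ∀ a ∈ A, 0 < a)
    (hA : ¬ ∃ a d : ℕ, 0 < d ∧ m * ((k - 1) * d) < a ∧ ∀ i < k, a + i * d ∈ A) :
    ∑' a : A, w a ≤ ((4 * m : ℕ) : ℝ≥0∞) * (D * ∑' j : ℕ, w (4 ^ j) * (r k (4 ^ j) : ℝ≥0∞)) := by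
  classical
  rw [tsum_subtype A w]
  have h1 : ∀ n, A.indicator w n ≤ ∑' j : ℕ, (if n ∈ A ∧ Nat.log 4 n = j then w (4 ^ j) else 0) := by
    intro n
    by_cases hn : n ∈ A
    · rw [Set.indicator_of_mem hn]
      refine le_trans ?_ (ENNReal.le_tsum (Nat.log 4 n))
      rw [if_pos ⟨hn, rfl⟩]
      exact hw (Nat.pow_log_le_self 4 (hA0 n hn).ne')
    · rw [Set.indicator_of_notMem hn]
      exact zero_le
  have h2 : ∀ j : ℕ, ∑' n : ℕ, (if n ∈ A ∧ Nat.log 4 n = j then w (4 ^ j) else 0) ≤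
      ((4 * m : ℕ) : ℝ≥0∞) * (D * (w (4 ^ (j + 1)) * (r k (4 ^ (j + 1)) : ℝ≥0∞))) := by
    intro j
    set F : Finset ℕ := (Finset.Icc 1 (4 ^ (j + 1))).filter fun n => n ∈ A ∧ Nat.log 4 n = j
      with hF
    have hFm : ∀ n ∈ F, n ∈ A ∧ 4 ^ j ≤ n ∧ n < 4 * 4 ^ j := by
      intro n hn
      have h6 := (Finset.mem_filter.1 hn).2
      have h7 := Nat.pow_log_le_self 4 (hA0 n h6.1).ne'
      have h8 := Nat.lt_pow_succ_log_self (b := 4) (by norm_num) n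
      rw [h6.2] at h7 h8
      rw [pow_succ'] at h8
      exact ⟨h6.1, h7, h8⟩
    have h3 : ∑' n : ℕ, (if n ∈ A ∧ Nat.log 4 n = j then w (4 ^ j) else 0) =
        (F.card : ℝ≥0∞) * w (4 ^ j) := by
      rw [tsum_eq_sum (s := F)]
      · rw [Finset.sum_congr rfl (fun n hn => if_pos (Finset.mem_filter.1 hn).2),
          Finset.sum_const, nsmul_eq_mul]
      · intro n hn
        refine if_neg fun h => hn (Finset.mem_filter.2 ⟨Finset.mem_Icc.2 ⟨hA0 n h.1, ?_⟩, h⟩)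
        have h4 := Nat.lt_pow_succ_log_self (b := 4) (by norm_num) n
        rw [h.2] at h4
        exact h4.le
    have hpos : 0 < 4 ^ j := by positivity
    have h5 : F.card ≤ r k (4 ^ (j + 1)) * (4 * m) := by
      have h6 : F.card ≤ r k (4 ^ (j + 1)) * (F.image fun n => m * n / 4 ^ j).card := by
        refine Finset.card_le_mul_card_image F _ fun b _ => ?_
        refine le_r ((Finset.filter_subset _ _).trans (Finset.filter_subset _ _)) ?_
        rintro ⟨a, d, hd, h⟩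
        apply hA
        have hg : ∀ i < k, a + i * d ∈ F ∧ m * (a + i * d) / 4 ^ j = b := fun i hi =>
          Finset.mem_filter.1 (Finset.mem_coe.1 (h i hi))
        refine ⟨a, d, hd, ?_, fun i hi => (hFm _ (hg i hi).1).1⟩
        have e1 := (hg 0 (by omega)).2
        have e2 := (hg (k - 1) (by omega)).2
        have e3 := (hFm _ (hg 0 (by omega)).1).2.1
        rw [zero_mul, add_zero] at e1 e3
        have e4 : b * 4 ^ j ≤ m * a := by
          rw [← e1]; exact Nat.div_mul_le_self _ _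
        have e5 : m * (a + (k - 1) * d) < (b + 1) * 4 ^ j := by
          rw [← e2, add_one_mul]
          exact Nat.lt_div_mul_add hpos
        nlinarith
      refine h6.trans (Nat.mul_le_mul_left _ ?_)
      have h7 : (F.image fun n => m * n / 4 ^ j) ⊆ Finset.range (4 * m) := by
        intro b hb
        obtain ⟨n, hn, rfl⟩ := Finset.mem_image.1 hb
        rw [Finset.mem_range, Nat.div_lt_iff_lt_mul hpos]
        have := (hFm n hn).2.2
        nlinarith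
      exact (Finset.card_le_card h7).trans (by rw [Finset.card_range])
    have h5' : (F.card : ℝ≥0∞) ≤ (r k (4 ^ (j + 1)) : ℝ≥0∞) * ((4 * m : ℕ) : ℝ≥0∞) := by
      exact_mod_cast h5
    rw [h3]
    calc (F.card : ℝ≥0∞) * w (4 ^ j)
        ≤ ((r k (4 ^ (j + 1)) : ℝ≥0∞) * ((4 * m : ℕ) : ℝ≥0∞)) * (D * w (4 * 4 ^ j)) :=
          mul_le_mul' h5' (hD _ (Nat.one_le_pow _ _ (by norm_num)))
      _ = ((4 * m : ℕ) : ℝ≥0∞) * (D * (w (4 ^ (j + 1)) * (r k (4 ^ (j + 1)) : ℝ≥0∞))) := by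
          rw [pow_succ']; ring
  calc ∑' n, A.indicator w n
      ≤ ∑' n : ℕ, ∑' j : ℕ, (if n ∈ A ∧ Nat.log 4 n = j then w (4 ^ j) else 0) :=
        ENNReal.tsum_le_tsum h1
    _ = ∑' j : ℕ, ∑' n : ℕ, (if n ∈ A ∧ Nat.log 4 n = j then w (4 ^ j) else 0) :=
        ENNReal.tsum_comm
    _ ≤ ∑' j : ℕ, ((4 * m : ℕ) : ℝ≥0∞) *
          (D * (w (4 ^ (j + 1)) * (r k (4 ^ (j + 1)) : ℝ≥0∞))) := ENNReal.tsum_le_tsum h2
    _ = ((4 * m : ℕ) : ℝ≥0∞) *
          (D * ∑' j : ℕ, w (4 ^ (j + 1)) * (r k (4 ^ (j + 1)) : ℝ≥0∞)) := by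
        rw [ENNReal.tsum_mul_left, ENNReal.tsum_mul_left]
    _ ≤ ((4 * m : ℕ) : ℝ≥0∞) * (D * ∑' j : ℕ, w (4 ^ j) * (r k (4 ^ j) : ℝ≥0∞)) := by
        refine mul_le_mul' le_rfl (mul_le_mul' le_rfl ?_)
        exact ENNReal.tsum_comp_le_tsum_of_injective (add_left_injective 1)
          (fun j : ℕ => w (4 ^ j) * (r k (4 ^ j) : ℝ≥0∞))

theorem starts_top {k : ℕ} (hk : 1 ≤ k) {w : ℕ → ℝ≥0∞} (hw : Antitone w) {D : ℝ≥0∞}
    (hDt : D ≠ ⊤) (hD : ∀ n, 1 ≤ n → w n ≤ D * w (4 * n))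
    (hr : ∑' j : ℕ, w (4 ^ j) * (r k (4 ^ j) : ℝ≥0∞) ≠ ⊤) (m : ℕ) (hm : 1 ≤ m) {A : Set ℕ}
    (hA0 : ∀ a ∈ A, 0 < a) (hA : ∑' a : A, w a = ⊤) :
    ∑' a : (Starts k m A), w a = ⊤ := by
  classical
  by_contra hne
  have h1 : ∑' a : (A \ Starts k m A : Set ℕ), w a ≠ ⊤ := by
    refine ne_top_of_le_ne_top (ENNReal.mul_ne_top (ENNReal.natCast_ne_top _)
      (ENNReal.mul_ne_top hDt hr)) (sum_loc hk hw hD m hm (fun a ha => hA0 a ha.1) ?_)
    rintro ⟨a, d, hd, h2, h3⟩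
    have h4 := h3 0 (by omega)
    rw [zero_mul, add_zero] at h4
    exact h4.2 ⟨d, hd, h2, fun i hi => (h3 i hi).1⟩
  have h5 : ∑' a : A, w a ≤ ∑' a : (A \ Starts k m A : Set ℕ), w a +
      ∑' a : (Starts k m A), w a := by
    rw [tsum_subtype, tsum_subtype, tsum_subtype, ← ENNReal.tsum_add]
    refine ENNReal.tsum_le_tsum fun n => ?_
    by_cases hn : n ∈ A
    · rw [Set.indicator_of_mem hn]
      by_cases hs : n ∈ Starts k m A
      · rw [Set.indicator_of_mem hs]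
        exact le_add_self
      · rw [Set.indicator_of_mem (show n ∈ A \ Starts k m A from ⟨hn, hs⟩)]
        exact le_self_add
    · rw [Set.indicator_of_notMem hn]
      exact zero_le
  rw [hA, top_le_iff] at h5
  exact ENNReal.add_ne_top.2 ⟨h1, hne⟩ h5

end Vale.Agent.P057
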