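import Vale.Agent.Lib.P057.Boost

/-! P057: exact link between Q1 and Q2. -/

open scoped ENNReal
open Filter Topology

namespace Vale.Agent.P057

theorem general (k : ℕ) (hk : 3 ≤ k) (w : ℕ → ℝ≥0∞) (hw : Antitone w) (D : ℝ≥0∞) (hDt : D ≠ ⊤)
    (hD : ∀ n, 1 ≤ n → w n ≤ D * w (4 * n)) :
    (Forces k w ↔ ∑' j : ℕ, w (4 ^ j) * (r k (4 ^ j) : ℝ≥0∞) ≠ ⊤) ∧
    (Forces k w ↔ ∃ C : ℝ≥0∞, C ≠ ⊤ ∧ ∀ A : Set ℕ, (∀ a ∈ A, 0 < a) → ¬ HasAP k A →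
      ∑' a : A, w a ≤ C) ∧
    (Forces k w ↔ ∀ m : ℕ, 1 ≤ m → ∀ A : Set ℕ, (∀ a ∈ A, 0 < a) → ∑' a : A, w a = ⊤ →
      ∑' a : Starts k m A, w a = ⊤) := by
  have h1 : Forces k w → ∑' j : ℕ, w (4 ^ j) * (r k (4 ^ j) : ℝ≥0∞) ≠ ⊤ := by
    intro hF htop
    obtain ⟨A, hA0, hA1, hA2⟩ := sum_ge hk hw hD
    rw [htop, top_le_iff] at hA2
    apply hA1
    apply hF A hA0
    by_contra hne
    exact ENNReal.mul_ne_top hDt hne hA2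
  have h2 : ∑' j : ℕ, w (4 ^ j) * (r k (4 ^ j) : ℝ≥0∞) ≠ ⊤ →
      ∃ C : ℝ≥0∞, C ≠ ⊤ ∧ ∀ A : Set ℕ, (∀ a ∈ A, 0 < a) → ¬ HasAP k A →
      ∑' a : A, w a ≤ C := fun hs =>
    ⟨D * ∑' j : ℕ, w (4 ^ j) * (r k (4 ^ j) : ℝ≥0∞), ENNReal.mul_ne_top hDt hs,
      fun A hA0 hA => sum_le hw hD hA0 hA⟩
  have h3 : (∃ C : ℝ≥0∞, C ≠ ⊤ ∧ ∀ A : Set ℕ, (∀ a ∈ A, 0 < a) → ¬ HasAP k A →
      ∑' a : A, w a ≤ C) → Forces k w := by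
    rintro ⟨C, hC, h⟩ A hA0 hA
    by_contra hne
    have h4 := h A hA0 hne
    rw [hA, top_le_iff] at h4
    exact hC h4
  have h5 : Forces k w → ∀ m : ℕ, 1 ≤ m → ∀ A : Set ℕ, (∀ a ∈ A, 0 < a) →
      ∑' a : A, w a = ⊤ → ∑' a : Starts k m A, w a = ⊤ := fun hF m hm A hA0 hA =>
    starts_top (by omega) hw hDt hD (h1 hF) m hm hA0 hA
  have h6 : (∀ m : ℕ, 1 ≤ m → ∀ A : Set ℕ, (∀ a ∈ A, 0 < a) →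
      ∑' a : A, w a = ⊤ → ∑' a : Starts k m A, w a = ⊤) → Forces k w := by
    intro h A hA0 hA
    have h7 := h 1 le_rfl A hA0 hA
    by_contra hne
    have h8 : Starts k 1 A = ∅ := by
      ext a
      simp only [Set.mem_empty_iff_false, iff_false]
      rintro ⟨d, hd, _, h9⟩
      exact hne ⟨a, d, hd, h9⟩
    rw [h8] at h7
    simp at h7
  exact ⟨⟨h1, fun h => h3 (h2 h)⟩, ⟨fun h => h2 (h1 h), h3⟩, ⟨h5, h6⟩⟩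

theorem inv_antitone : Antitone fun n : ℕ => ((n : ℝ≥0∞))⁻¹ := by
  intro a b hab
  exact ENNReal.inv_le_inv.2 (by exact_mod_cast hab)

theorem inv_doubling (n : ℕ) : ((n : ℝ≥0∞))⁻¹ ≤ 4 * (((4 * n : ℕ) : ℝ≥0∞))⁻¹ := by
  push_cast
  rw [ENNReal.mul_inv (Or.inl (by norm_num)) (Or.inl (by norm_num)), ← mul_assoc,
    ENNReal.mul_inv_cancel (by norm_num) (by norm_num), one_mul]

theorem main :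
    (∀ k : ℕ, 3 ≤ k → ∀ w : ℕ → ℝ≥0∞, Antitone w → ∀ D : ℝ≥0∞, D ≠ ⊤ →
      (∀ n, 1 ≤ n → w n ≤ D * w (4 * n)) →
      (Forces k w ↔ ∑' j : ℕ, w (4 ^ j) * (r k (4 ^ j) : ℝ≥0∞) ≠ ⊤) ∧
      (Forces k w ↔ ∃ C : ℝ≥0∞, C ≠ ⊤ ∧ ∀ A : Set ℕ, (∀ a ∈ A, 0 < a) → ¬ HasAP k A →
        ∑' a : A, w a ≤ C) ∧
      (Forces k w ↔ ∀ m : ℕ, 1 ≤ m → ∀ A : Set ℕ, (∀ a ∈ A, 0 < a) → ∑' a : A, w a = ⊤ →
        ∑' a : Starts k m A, w a = ⊤)) ∧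
    (∀ k : ℕ, 3 ≤ k →
      (Forces k (fun n => (n : ℝ≥0∞)⁻¹) ↔
        ∑' j : ℕ, ((4 ^ j : ℕ) : ℝ≥0∞)⁻¹ * (r k (4 ^ j) : ℝ≥0∞) ≠ ⊤) ∧
      (Forces k (fun n => (n : ℝ≥0∞)⁻¹) ↔ ∃ C : ℝ≥0∞, C ≠ ⊤ ∧ ∀ A : Set ℕ, (∀ a ∈ A, 0 < a) →
        ¬ HasAP k A → ∑' a : A, ((a : ℕ) : ℝ≥0∞)⁻¹ ≤ C) ∧
      (Forces k (fun n => (n : ℝ≥0∞)⁻¹) ↔ ∀ m : ℕ, 1 ≤ m → ∀ A : Set ℕ, (∀ a ∈ A, 0 < a) →
        ∑' a : A, ((a : ℕ) : ℝ≥0∞)⁻¹ = ⊤ →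
        ∑' a : Starts k m A, ((a : ℕ) : ℝ≥0∞)⁻¹ = ⊤) ∧
      (Forces k (fun n => (n : ℝ≥0∞)⁻¹) → ∃ g : ℕ → ℕ, Monotone g ∧ Tendsto g atTop atTop ∧
        Forces k (fun n => (g n : ℝ≥0∞) * (n : ℝ≥0∞)⁻¹))) := by
  refine ⟨general, fun k hk => ?_⟩
  have hG := general k hk (fun n => (n : ℝ≥0∞)⁻¹) inv_antitone 4 (by norm_num)
    (fun n _ => inv_doubling n)
  refine ⟨hG.1, hG.2.1, hG.2.2, fun hF => ?_⟩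
  have hs := hG.1.1 hF
  obtain ⟨G, hG1, hG2, hG3⟩ := exists_boost
    (fun j => ((4 ^ j : ℕ) : ℝ≥0∞)⁻¹ * (r k (4 ^ (j + 1)) : ℝ≥0∞)) (by
      refine ne_top_of_le_ne_top (ENNReal.mul_ne_top (a := 4) (by norm_num) hs) ?_
      rw [← ENNReal.tsum_mul_left]
      refine le_trans (ENNReal.tsum_le_tsum fun j => ?_)
        (ENNReal.tsum_comp_le_tsum_of_injective (add_left_injective 1)
          (fun j : ℕ => (4 : ℝ≥0∞) * (((4 ^ j : ℕ) : ℝ≥0∞)⁻¹ * (r k (4 ^ j) : ℝ≥0∞))))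
      rw [← mul_assoc]
      refine mul_le_mul' ?_ le_rfl
      have := inv_doubling (4 ^ j)
      rwa [← pow_succ'] at this)
  have hlog : Tendsto (Nat.log 4) atTop atTop := by
    rw [tendsto_atTop]
    intro M
    refine eventually_atTop.2 ⟨4 ^ M, fun n hn => ?_⟩
    exact Nat.le_log_of_pow_le (by norm_num) hn
  refine ⟨fun n => G (Nat.log 4 n), fun a b hab => hG1 (Nat.log_mono_right hab),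
    hG2.comp hlog, ?_⟩
  intro A hA0 hA
  by_contra hne
  have h1 := sum_scale (k := k) (fun j => (G j : ℝ≥0∞) * ((4 ^ j : ℕ) : ℝ≥0∞)⁻¹) hA0 hne
  have h2 : ∑' a : A, ((G (Nat.log 4 a) : ℝ≥0∞) * ((a : ℕ) : ℝ≥0∞)⁻¹) ≤
      ∑' a : A, ((G (Nat.log 4 a) : ℝ≥0∞) * ((4 ^ (Nat.log 4 (a : ℕ)) : ℕ) : ℝ≥0∞)⁻¹) := by
    refine ENNReal.tsum_le_tsum fun a => mul_le_mul' le_rfl (ENNReal.inv_le_inv.2 ?_)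
    exact_mod_cast Nat.pow_log_le_self 4 (hA0 a a.2).ne'
  have h3 := h2.trans h1
  have h4 : ∑' j : ℕ, (G j : ℝ≥0∞) * ((4 ^ j : ℕ) : ℝ≥0∞)⁻¹ * (r k (4 ^ (j + 1)) : ℝ≥0∞) ≠ ⊤ := by
    refine ne_top_of_le_ne_top hG3 (le_of_eq (tsum_congr fun j => ?_))
    ring
  exact ne_top_of_le_ne_top h4 h3 hA

end Vale.Agent.P057
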