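import Vale.Agent.Lib.P057.Defs

/-! P057: sets without progressions and weighted sums. -/

open scoped ENNReal

namespace Vale.Agent.P057

theorem HasAP.mono {k : ℕ} {A B : Set ℕ} (h : A ⊆ B) (hA : HasAP k A) : HasAP k B := by
  obtain ⟨a, d, hd, h1⟩ := hA
  exact ⟨a, d, hd, fun i hi => h (h1 i hi)⟩

theorem exists_r {k : ℕ} (hk : 1 ≤ k) (N : ℕ) :
    ∃ S : Finset ℕ, S ⊆ Finset.Icc 1 N ∧ ¬ HasAP k (S : Set ℕ) ∧ S.card = r k N := by
  classical
  have hne : ((Finset.Icc 1 N).powerset.filter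
      fun S : Finset ℕ => ¬ HasAP k (S : Set ℕ)).Nonempty := by
    refine ⟨∅, Finset.mem_filter.2 ⟨Finset.empty_mem_powerset _, ?_⟩⟩
    rintro ⟨a, d, _, h⟩
    simpa using h 0 (by omega)
  obtain ⟨S, hS, h1⟩ := Finset.exists_mem_eq_sup _ hne Finset.card
  rw [Finset.mem_filter, Finset.mem_powerset] at hS
  refine ⟨S, hS.1, hS.2, ?_⟩
  unfold r
  rw [← h1]

theorem le_r {k N : ℕ} {S : Finset ℕ} (h1 : S ⊆ Finset.Icc 1 N) (h2 : ¬ HasAP k (S : Set ℕ)) :
    S.card ≤ r k N := by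
  classical
  unfold r
  exact Finset.le_sup (f := Finset.card) (Finset.mem_filter.2 ⟨Finset.mem_powerset.2 h1, h2⟩)

/-- upper bound for the sum over a set without progressions -/
theorem sum_le {k : ℕ} {w : ℕ → ℝ≥0∞} (hw : Antitone w) {D : ℝ≥0∞}
    (hD : ∀ n, 1 ≤ n → w n ≤ D * w (4 * n)) {A : Set ℕ} (hA0 : ∀ a ∈ A, 0 < a)
    (hA : ¬ HasAP k A) :
    ∑' a : A, w a ≤ D * ∑' j : ℕ, w (4 ^ j) * (r k (4 ^ j) : ℝ≥0∞) := by
  classical
  rw [tsum_subtype A w]
  have h1 : ∀ n, A.indicator w n ≤ ∑' j : ℕ, (if n ∈ A ∧ Nat.log 4 n = j then w (4 ^ j) else 0) := by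
    intro n
    by_cases hn : n ∈ A
    · rw [Set.indicator_of_mem hn]
      refine le_trans ?_ (ENNReal.le_tsum (Nat.log 4 n))
      rw [if_pos ⟨hn, rfl⟩]
      exact hw (Nat.pow_log_le_self 4 (hA0 n hn).ne')
    · rw [Set.indicator_of_notMem hn]
      exact zero_le
  have h2 : ∀ j : ℕ, ∑' n : ℕ, (if n ∈ A ∧ Nat.log 4 n = j then w (4 ^ j) else 0) ≤
      D * (w (4 ^ (j + 1)) * (r k (4 ^ (j + 1)) : ℝ≥0∞)) := by
    intro j
    set F : Finset ℕ := (Finset.Icc 1 (4 ^ (j + 1))).filter fun n => n ∈ A ∧ Nat.log 4 n = j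
      with hF
    have h3 : ∑' n : ℕ, (if n ∈ A ∧ Nat.log 4 n = j then w (4 ^ j) else 0) =
        (F.card : ℝ≥0∞) * w (4 ^ j) := by
      rw [tsum_eq_sum (s := F)]
      · rw [Finset.sum_congr rfl (fun n hn => if_pos (Finset.mem_filter.1 hn).2),
          Finset.sum_const, nsmul_eq_mul]
      · intro n hn
        refine if_neg fun h => hn (Finset.mem_filter.2 ⟨Finset.mem_Icc.2 ⟨hA0 n h.1, ?_⟩, h⟩)
        have h4 := Nat.lt_pow_succ_log_self (b := 4) (by norm_num) n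
        rw [h.2] at h4
        exact h4.le
    have h5 : F.card ≤ r k (4 ^ (j + 1)) :=
      le_r (Finset.filter_subset _ _) fun h => hA (h.mono fun n hn =>
        (Finset.mem_filter.1 (Finset.mem_coe.1 hn)).2.1)
    rw [h3]
    calc (F.card : ℝ≥0∞) * w (4 ^ j)
        ≤ (r k (4 ^ (j + 1)) : ℝ≥0∞) * (D * w (4 * 4 ^ j)) := by
          gcongr
          exact hD _ (Nat.one_le_pow _ _ (by norm_num))
      _ = D * (w (4 ^ (j + 1)) * (r k (4 ^ (j + 1)) : ℝ≥0∞)) := by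
          rw [pow_succ', mul_comm, mul_assoc]
  calc ∑' n, A.indicator w n
      ≤ ∑' n : ℕ, ∑' j : ℕ, (if n ∈ A ∧ Nat.log 4 n = j then w (4 ^ j) else 0) :=
        ENNReal.tsum_le_tsum h1
    _ = ∑' j : ℕ, ∑' n : ℕ, (if n ∈ A ∧ Nat.log 4 n = j then w (4 ^ j) else 0) :=
        ENNReal.tsum_comm
    _ ≤ ∑' j : ℕ, D * (w (4 ^ (j + 1)) * (r k (4 ^ (j + 1)) : ℝ≥0∞)) := ENNReal.tsum_le_tsum h2
    _ = D * ∑' j : ℕ, w (4 ^ (j + 1)) * (r k (4 ^ (j + 1)) : ℝ≥0∞) := ENNReal.tsum_mul_left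
    _ ≤ D * ∑' j : ℕ, w (4 ^ j) * (r k (4 ^ j) : ℝ≥0∞) := by
        refine mul_le_mul' le_rfl ?_
        exact ENNReal.tsum_comp_le_tsum_of_injective (add_left_injective 1)
          (fun j : ℕ => w (4 ^ j) * (r k (4 ^ j) : ℝ≥0∞))

/-- three terms in progression in the union of the blocks are in the same block -/
theorem tri {x y z i j l : ℕ} (hxy : x < y) (h : x + z = 2 * y)
    (hx : 2 * 4 ^ i < x ∧ x ≤ 3 * 4 ^ i) (hy : 2 * 4 ^ j < y ∧ y ≤ 3 * 4 ^ j)
    (hz : 2 * 4 ^ l < z ∧ z ≤ 3 * 4 ^ l) : i = j ∧ j = l := by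
  have key : ∀ a b : ℕ, a < b → 4 * 4 ^ a ≤ 4 ^ b := by
    intro a b hab
    calc 4 * 4 ^ a = 4 ^ (a + 1) := by rw [pow_succ']
      _ ≤ 4 ^ b := Nat.pow_le_pow_right (by norm_num) hab
  have hjl : j = l := by
    rcases lt_trichotomy j l with h1 | h1 | h1
    · have := key j l h1; omega
    · exact h1
    · have := key l j h1; omega
  subst hjl
  refine ⟨?_, rfl⟩
  rcases lt_trichotomy i j with h1 | h1 | h1
  · have := key i j h1; omega
  · exact h1
  · have := key j i h1; omega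

/-- a set without progressions with large sum -/
theorem sum_ge {k : ℕ} (hk : 3 ≤ k) {w : ℕ → ℝ≥0∞} (hw : Antitone w) {D : ℝ≥0∞}
    (hD : ∀ n, 1 ≤ n → w n ≤ D * w (4 * n)) :
    ∃ A : Set ℕ, (∀ a ∈ A, 0 < a) ∧ ¬ HasAP k A ∧
      ∑' j : ℕ, w (4 ^ j) * (r k (4 ^ j) : ℝ≥0∞) ≤ D * ∑' a : A, w a := by
  classical
  choose S hS1 hS2 hS3 using fun j : ℕ => exists_r (k := k) (by omega) (4 ^ j)
  set T : ℕ → Finset ℕ := fun j => (S j).map (addLeftEmbedding (2 * 4 ^ j)) with hT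
  have hmem : ∀ j n, n ∈ T j ↔ ∃ s ∈ S j, 2 * 4 ^ j + s = n := by
    intro j n
    simp only [hT, Finset.mem_map, addLeftEmbedding_apply]
  have hbd : ∀ j n, n ∈ T j → 2 * 4 ^ j < n ∧ n ≤ 3 * 4 ^ j := by
    intro j n hn
    obtain ⟨s, hs, rfl⟩ := (hmem j n).1 hn
    have := Finset.mem_Icc.1 (hS1 j hs)
    omega
  have huniq : ∀ j l n, n ∈ T j → n ∈ T l → j = l := by
    intro j l n h1 h2
    have h3 := hbd j n h1
    have h4 := hbd l n h2
    have key : ∀ a b : ℕ, a < b → 4 * 4 ^ a ≤ 4 ^ b := by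
      intro a b hab
      calc 4 * 4 ^ a = 4 ^ (a + 1) := by rw [pow_succ']
        _ ≤ 4 ^ b := Nat.pow_le_pow_right (by norm_num) hab
    rcases lt_trichotomy j l with h5 | h5 | h5
    · have := key j l h5; omega
    · exact h5
    · have := key l j h5; omega
  refine ⟨{n | ∃ j, n ∈ T j}, ?_, ?_, ?_⟩
  · rintro n ⟨j, hj⟩
    have := hbd j n hj
    omega
  · rintro ⟨a, d, hd, h⟩
    choose! J hJ using h
    have hstep : ∀ i, i + 1 < k → J i = J (i + 1) := by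
      intro i hi
      rcases Nat.eq_zero_or_pos i with h0 | h0
      · subst h0
        have h1 := tri (x := a + 0 * d) (y := a + 1 * d) (z := a + 2 * d) (by omega) (by ring)
          (hbd _ _ (hJ 0 (by omega))) (hbd _ _ (hJ 1 (by omega))) (hbd _ _ (hJ 2 (by omega)))
        exact h1.1
      · obtain ⟨m, rfl⟩ : ∃ m, i = m + 1 := ⟨i - 1, by omega⟩
        have h1 := tri (x := a + m * d) (y := a + (m + 1) * d) (z := a + (m + 1 + 1) * d)
          (by nlinarith) (by ring)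
          (hbd _ _ (hJ m (by omega))) (hbd _ _ (hJ (m + 1) (by omega)))
          (hbd _ _ (hJ (m + 1 + 1) (by omega)))
        exact h1.2
    have hall : ∀ i, i < k → J i = J 0 := by
      intro i
      induction i with
      | zero => intro _; rfl
      | succ i ih => intro hi; rw [← hstep i hi]; exact ih (by omega)
    apply hS2 (J 0)
    refine ⟨a - 2 * 4 ^ (J 0), d, hd, fun i hi => ?_⟩
    have h1 := hJ i hi
    rw [hall i hi] at h1
    obtain ⟨s, hs, h2⟩ := (hmem _ _).1 h1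
    have h3 := hbd _ _ (hJ 0 (by omega))
    rw [zero_mul, add_zero] at h3
    have h4 : a - 2 * 4 ^ (J 0) + i * d = s := by omega
    rw [h4]
    exact hs
  · rw [tsum_subtype {n | ∃ j, n ∈ T j} w]
    have h1 : ∀ j : ℕ, w (4 ^ j) * (r k (4 ^ j) : ℝ≥0∞) ≤
        D * ∑' n : ℕ, (if n ∈ T j then w n else 0) := by
      intro j
      have h2 : ∑' n : ℕ, (if n ∈ T j then w n else 0) = ∑ n ∈ T j, w n := by
        rw [tsum_eq_sum (s := T j)]
        · exact Finset.sum_congr rfl fun n hn => if_pos hn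
        · intro n hn
          exact if_neg hn
      have h3 : ((T j).card : ℝ≥0∞) * w (4 * 4 ^ j) ≤ ∑ n ∈ T j, w n := by
        rw [← nsmul_eq_mul, ← Finset.sum_const]
        refine Finset.sum_le_sum fun n hn => hw ?_
        have := hbd j n hn
        omega
      have h4 : (T j).card = r k (4 ^ j) := by rw [hT, Finset.card_map, hS3]
      rw [h2]
      calc w (4 ^ j) * (r k (4 ^ j) : ℝ≥0∞) ≤ (D * w (4 * 4 ^ j)) * (r k (4 ^ j) : ℝ≥0∞) := by
            gcongr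
            exact hD _ (Nat.one_le_pow _ _ (by norm_num))
        _ = D * (((T j).card : ℝ≥0∞) * w (4 * 4 ^ j)) := by rw [h4]; ring
        _ ≤ D * ∑ n ∈ T j, w n := by gcongr
    calc ∑' j : ℕ, w (4 ^ j) * (r k (4 ^ j) : ℝ≥0∞)
        ≤ ∑' j : ℕ, D * ∑' n : ℕ, (if n ∈ T j then w n else 0) := ENNReal.tsum_le_tsum h1
      _ = D * ∑' j : ℕ, ∑' n : ℕ, (if n ∈ T j then w n else 0) := ENNReal.tsum_mul_left
      _ = D * ∑' n : ℕ, ∑' j : ℕ, (if n ∈ T j then w n else 0) := by rw [ENNReal.tsum_comm]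
      _ ≤ D * ∑' n, Set.indicator {n | ∃ j, n ∈ T j} w n := by
          gcongr with n
          by_cases hn : ∃ j, n ∈ T j
          · obtain ⟨j, hj⟩ := hn
            rw [Set.indicator_of_mem (show n ∈ {n | ∃ j, n ∈ T j} from ⟨j, hj⟩),
              tsum_eq_single j (fun l hl => if_neg fun h => hl (huniq l j n h hj)), if_pos hj]
          · have : ∀ j, (if n ∈ T j then w n else 0) = 0 := fun j => if_neg fun h => hn ⟨j, h⟩
            simp [this]

end Vale.Agent.P057
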